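import Mathlib.Computability.TuringMachine.Computable
import Mathlib.Analysis.SpecialFunctions.Pow.Real
import Mathlib.Analysis.SpecialFunctions.Log.Base
import Mathlib.Algebra.Order.BigOperators.Group.Finset

/-!
# P336: depth-three circuits, definitions
-/

namespace Vale.Agent.P336

/-- What a bottom gate can read on `n` variables: the literal which is true when `x i = b`, or a
constant. -/
inductive Input (n : ℕ)
  | lit (i : Fin n) (b : Bool)
  | const (b : Bool)
  deriving DecidableEq

/-- The value of an input of a bottom gate. -/
def Input.eval {n : ℕ} (x : Fin n → Bool) : Input n → Prop
  | .lit i b => x i = b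
  | .const b => b = true

/-- A depth-three OR-AND-OR circuit on `n` variables: `bot` bottom OR gates, each reading a set of
literals and constants, `mid` middle AND gates, each reading a set of bottom gates, and one top OR
gate reading a set of middle gates. Fan-in and fan-out are unbounded. -/
structure Circuit (n : ℕ) where
  /-- number of bottom gates -/
  bot : ℕ
  /-- number of middle gates -/
  mid : ℕ
  /-- the inputs of the bottom OR gates -/
  orIn : Fin bot → Finset (Input n)
  /-- the inputs of the middle AND gates -/
  andIn : Fin mid → Finset (Fin bot)
  /-- the inputs of the top OR gate -/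
  topIn : Finset (Fin mid)

namespace Circuit

variable {n : ℕ} (C : Circuit n) (x : Fin n → Bool)

/-- The value of a bottom gate: some input is true. -/
def botVal (c : Fin C.bot) : Prop := ∃ u ∈ C.orIn c, u.eval x

/-- The value of a middle gate: all its bottom gates are true. -/
def midVal (g : Fin C.mid) : Prop := ∀ c ∈ C.andIn g, C.botVal x c

/-- The value of the circuit: some middle gate read by the top gate is true. -/
def val : Prop := ∃ g ∈ C.topIn, C.midVal x g

/-- The total number of gates. -/
def size : ℕ := C.bot + C.mid + 1

/-- The circuit computes the function `f`. -/
def Computes (f : (Fin n → Bool) → Bool) : Prop := ∀ x, C.val x ↔ f x = true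

end Circuit

/-- `S₃(f)`: the minimum number of gates of a depth-three circuit computing `f`. -/
noncomputable def S3 {n : ℕ} (f : (Fin n → Bool) → Bool) : ℕ :=
  sInf {s | ∃ C : Circuit n, C.Computes f ∧ C.size = s}

/-- The membership function `f_n` of the language `L` on `{0,1}^n`. -/
def slice (L : List Bool → Bool) (n : ℕ) (x : Fin n → Bool) : Bool := L (List.ofFn x)

/-- The language `L` (given by its membership function) is decidable in deterministic polynomial
time by a multi-tape (multi-stack) Turing machine with finite alphabets. -/
def InP (L : List Bool → Bool) : Prop :=
  ∃ M : Turing.TM2ComputableInPolyTime (fun w : List Bool => w) (fun b : Bool => [b]) L,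
    ∀ k, Finite (M.tm.Γ k)

end Vale.Agent.P336
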