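import Vale.Agent.P336.H746.Defs
import Mathlib

/-!
# P336: the parts of the proof, as propositions

* clauses are coded by their *falsifiers*: a partial assignment `c : PA V`; the clause is false at
  `x` iff `x` lies in the cube of `c` (tautologies are dropped beforehand).
-/

namespace Vale.Agent.P336.H746

open Finset

/-- Partial assignments: restrictions, cubes, and clauses (coded by their falsifier). -/
abbrev PA (V : Type) := V → Option Bool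

section defs

variable {V : Type} [Fintype V] [DecidableEq V]

/-- `x` lies in the cube of the partial assignment `ρ`. -/
def Mem (ρ : PA V) (x : V → Bool) : Prop := ∀ v, ρ v = none ∨ ρ v = some (x v)

instance (ρ : PA V) (x : V → Bool) : Decidable (Mem ρ x) := by unfold Mem; infer_instance

/-- `x` satisfies all the clauses of `F`. -/
def Sol (F : Finset (PA V)) (x : V → Bool) : Prop := ∀ c ∈ F, ¬ Mem c x

instance (F : Finset (PA V)) (x : V → Bool) : Decidable (Sol F x) := by unfold Sol; infer_instance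

/-- Number of variables of a clause. -/
def width (c : PA V) : ℕ := #{v | c v ≠ none}

/-- Number of free variables of a restriction. -/
def stars (ρ : PA V) : ℕ := #{v | ρ v = none}

/-- Compatible partial assignments (for a clause `c`: `c` is not satisfied by `ρ`). -/
def Compat (c ρ : PA V) : Prop := ∀ v, c v = none ∨ ρ v = none ∨ c v = ρ v

instance (c ρ : PA V) : Decidable (Compat c ρ) := by unfold Compat; infer_instance

/-- Number of variables of the clause `c` left free by `ρ`. -/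
def awidth (c ρ : PA V) : ℕ := #{v | c v ≠ none ∧ ρ v = none}

/-- Sum of `g` over the solutions of the CNF `F` in the cube of `ρ`. -/
noncomputable def cnfSum (g : (V → Bool) → ℝ) (ρ : PA V) (F : Finset (PA V)) : ℝ :=
  ∑ x with Mem ρ x ∧ Sol F x, g x

/-- Forget the values of the variables in `D`. -/
def free (σ : PA V) (D : Finset V) : PA V := fun v => if v ∈ D then none else σ v

end defs

/-- PART A (expansion lemma). `r` is `1/b` in the application. -/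
def PartA : Prop :=
  ∀ (V : Type) [Fintype V] [DecidableEq V] (W : PA V → ℝ) (r : ℝ) (k t : ℕ) (g : (V → Bool) → ℝ)
    (β : PA V → ℝ) (F : Finset (PA V)),
    0 ≤ r → (∀ ρ, 0 ≤ W ρ) →
    (∀ (σ : PA V) (D : Finset V), (∀ v ∈ D, σ v ≠ none) → W (free σ D) ≤ r ^ #D * W σ) →
    (1 + 2 * r) ^ k ≤ 2 ^ t →
    (∀ c ∈ F, width c ≤ k) →
    (∀ ρ, W ρ ≠ 0 → ∀ A ⊆ F, (∀ c ∈ A, Compat c ρ → awidth c ρ ≤ t) → |cnfSum g ρ A| ≤ β ρ) →
    ∑ ρ, W ρ * |cnfSum g ρ F| ≤ 2 * ∑ ρ, W ρ * β ρ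

/-- The number of clauses of the CNFs obtained by sparsification of `t`-CNFs on `N` variables. -/
def sparseSize (N t : ℕ) : ℕ := 2 * N * (4096 * t ^ 3) ^ (t - 1) + 1

/-- PART B (sparsification): if `g` has small sums over the solution sets of sparse `t`-CNFs in
cubes, then over all `t`-CNFs in cubes. -/
def PartB : Prop :=
  ∀ (ν t : ℕ) (g : (Fin (16 * ν) → Bool) → ℝ) (D : ℝ), 1 ≤ t → 0 ≤ D →
    (∀ (K : PA (Fin (16 * ν))) (F : Finset (PA (Fin (16 * ν)))), (∀ c ∈ F, width c ≤ t) →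
      #F ≤ sparseSize (16 * ν) t → |cnfSum g K F| ≤ D) →
    ∀ (K : PA (Fin (16 * ν))) (F : Finset (PA (Fin (16 * ν)))), (∀ c ∈ F, width c ≤ t) →
      |cnfSum g K F| ≤ 2 ^ ν * D

/-- The hash function. The seed `a` consists of `m` polynomials of degree `< m * N` over `GF(2)`,
`y` is a polynomial of degree `< N`; the value is the coefficient of `X^(mN-1)` of
`∑ j, a_j * y^j`. -/
noncomputable def hash (N m : ℕ) (a : Fin m → Fin (m * N) → Bool) (y : Fin N → Bool) : ZMod 2 :=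
  (∑ j : Fin m, (∑ s : Fin (m * N), if a j s then (Polynomial.X : Polynomial (ZMod 2)) ^ (s : ℕ)
    else 0) * (∑ i : Fin N, if y i then (Polynomial.X : Polynomial (ZMod 2)) ^ (i : ℕ) else 0)
      ^ (j : ℕ)).coeff (m * N - 1)

/-- The hash function with values `±1`. -/
noncomputable def hsign (N m : ℕ) (a : Fin m → Fin (m * N) → Bool) (y : Fin N → Bool) : ℝ :=
  if hash N m a y = 0 then 1 else -1

/-- PART C1 (independence). -/
def PartC1 : Prop :=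
  ∀ (N m : ℕ) (T : Finset (Fin N → Bool)), T.Nonempty → #T ≤ m →
    ∑ a : Fin m → Fin (m * N) → Bool, ∏ y ∈ T, hsign N m a y = 0

/-- PART C2 (moments): `m`-wise unbiased families of signs, high moment and union bound, abstract
version. `lam S` is the wanted bound for the set `S`. -/
def PartC2 : Prop :=
  ∀ (A Y : Type) [Fintype A] [Nonempty A] [Fintype Y] [DecidableEq Y] (H : A → Y → ℝ) (q : ℕ)
    (𝒮 : Finset (Finset Y)) (lam : Finset Y → ℝ),
    (∀ a y, H a y = 1 ∨ H a y = -1) →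
    (∀ T : Finset Y, T.Nonempty → #T ≤ 2 * q → ∑ a, ∏ y ∈ T, H a y = 0) →
    (∀ S ∈ 𝒮, 0 < lam S) →
    (∑ S ∈ 𝒮, ((q : ℝ) ^ 2 * #S / lam S ^ 2) ^ q < 1) →
    ∃ a, ∀ S ∈ 𝒮, |∑ y ∈ S, H a y| ≤ lam S

/-- PART C (good seed). -/
def PartC : Prop :=
  ∀ (ν t q : ℕ), 1 ≤ ν → 1 ≤ t → q ^ 2 ≤ 2 ^ ν →
    (2 * (16 * ν) + sparseSize (16 * ν) t * (t * (Nat.log 2 (2 * (16 * ν)) + 2) + 1) + 1 ≤ ν * q) →
    ∀ m, 2 * q ≤ m →
    ∃ a : Fin m → Fin (m * (16 * ν)) → Bool,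
      ∀ (K : PA (Fin (16 * ν))) (F : Finset (PA (Fin (16 * ν)))), (∀ c ∈ F, width c ≤ t) →
        #F ≤ sparseSize (16 * ν) t →
        |cnfSum (hsign (16 * ν) m a) K F| ≤ 2 ^ ν * (Real.sqrt 2) ^ stars K

/-- Parity of the bits of the block `i`. -/
def par {N b : ℕ} (x : Fin N × Fin b → Bool) (i : Fin N) : Bool :=
  (List.ofFn fun j => x (i, j)).foldr Bool.xor false

/-- PART D (from `t`-CNFs on `N` variables to `k`-CNFs on `N * b` variables). -/
def PartD : Prop :=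
  ∀ (N b k t : ℕ) (h : (Fin N → Bool) → ℝ) (E : ℝ), 1 ≤ b → 0 ≤ E →
    (1 + 2 / (b : ℝ)) ^ k ≤ 2 ^ t →
    (∀ (K : PA (Fin N)) (F : Finset (PA (Fin N))), (∀ c ∈ F, width c ≤ t) →
      |cnfSum h K F| ≤ E * (Real.sqrt 2) ^ stars K) →
    ∀ F : Finset (PA (Fin N × Fin b)), (∀ c ∈ F, width c ≤ k) →
      |cnfSum (fun x => h (par x)) (fun _ => none) F| ≤
        2 * E * (2 ^ b * (1 / 2 + Real.sqrt 2 / 4)) ^ N

/-- PART G (from CNFs to circuits): if all CNFs of width `≤ 2ν` have small correlation with the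
sign function `g`, then every depth-three circuit computing a function `f` which restricts to
`[g = s]` has size at least `2^ν / 32`. -/
def PartG : Prop :=
  ∀ (V : Type) [Fintype V] [DecidableEq V] (ν ℓ : ℕ) (g : (V → Bool) → ℝ)
    (f : (Fin ℓ → Bool) → Bool) (emb : Fin ℓ → V ⊕ Bool) (s : ℝ),
    6 ≤ ν → (s = 1 ∨ s = -1) → (∀ x, g x = 1 ∨ g x = -1) →
    (∀ x : V → Bool, f (fun i => Sum.elim x id (emb i)) = true ↔ g x = s) →
    (∀ F : Finset (PA V), (∀ c ∈ F, width c ≤ 2 * ν) →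
      |cnfSum g (fun _ => none) F| ≤ 2 ^ Fintype.card V * 2 / 2 ^ ν) →
    ∀ C : Circuit ℓ, C.Computes f → 2 ^ ν ≤ 32 * C.size

/-! ### Parameters of the language, as functions of the input length `ℓ` -/

/-- `≈ √ℓ` -/
def pS (ℓ : ℕ) : ℕ := Nat.sqrt ℓ

/-- the slowly growing parameter `τ`, `≈ √(log ℓ / log log ℓ)` up to a constant -/
def pτ (ℓ : ℕ) : ℕ := Nat.sqrt (Nat.size (pS ℓ) / (128 * Nat.size (Nat.size (pS ℓ))))

/-- `ν ≈ τ √ℓ / 64` -/
def pν (ℓ : ℕ) : ℕ := pS ℓ / 64 * pτ ℓ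

/-- number of blocks -/
def pN (ℓ : ℕ) : ℕ := 16 * pν ℓ

/-- size of the blocks, `≈ √ℓ / τ` -/
def pb (ℓ : ℕ) : ℕ := pS ℓ / pτ ℓ

/-- number of coefficients of the seed, `≈ ℓ^(1/8)` -/
def pm (ℓ : ℕ) : ℕ := Nat.sqrt (Nat.sqrt (pS ℓ))

/-- Layout of the inputs of length `ℓ`: first the seed `a`, then the blocks `x`, then padding. -/
def layout (ℓ : ℕ) (a : Fin (pm ℓ) → Fin (pm ℓ * pN ℓ) → Bool) (i : Fin ℓ) :
    (Fin (pN ℓ) × Fin (pb ℓ)) ⊕ Bool :=
  if h : (i : ℕ) < pm ℓ * (pm ℓ * pN ℓ) then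
    .inr (a ⟨i / (pm ℓ * pN ℓ), Nat.div_lt_of_lt_mul (by rwa [mul_comm] at h)⟩
      ⟨i % (pm ℓ * pN ℓ), Nat.mod_lt _ (Nat.pos_of_ne_zero (by rintro h0; simp [h0] at h))⟩)
  else if h' : (i : ℕ) - pm ℓ * (pm ℓ * pN ℓ) < pN ℓ * pb ℓ then
    .inl (⟨(i - pm ℓ * (pm ℓ * pN ℓ)) / pb ℓ,
        Nat.div_lt_of_lt_mul (by rw [mul_comm (pb ℓ)]; exact h')⟩,
      ⟨(i - pm ℓ * (pm ℓ * pN ℓ)) % pb ℓ,
        Nat.mod_lt _ (Nat.pos_of_ne_zero (by rintro h0; simp [h0] at h'))⟩)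
  else .inr false

/-- PART E (the language is in P and computes the hash function). -/
def PartE : Prop :=
  ∃ L : List Bool → Bool, InP L ∧
    ∀ (ℓ : ℕ) (a : Fin (pm ℓ) → Fin (pm ℓ * pN ℓ) → Bool) (x : Fin (pN ℓ) × Fin (pb ℓ) → Bool),
      pm ℓ * (pm ℓ * pN ℓ) + pN ℓ * pb ℓ ≤ ℓ →
      (slice L ℓ (fun i => Sum.elim x id (layout ℓ a i)) = true ↔ hash (pN ℓ) (pm ℓ) a (par x) = 1)

/-- PART H1 (parameters): the numerical conditions hold for all large lengths, with `t = τ²`. -/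
def PartH1 : Prop :=
  ∀ᶠ ℓ in Filter.atTop,
    6 ≤ pν ℓ ∧ 1 ≤ pτ ℓ ∧ 1 ≤ pb ℓ ∧
    pm ℓ * (pm ℓ * pN ℓ) + pN ℓ * pb ℓ ≤ ℓ ∧
    (pm ℓ / 2) ^ 2 ≤ 2 ^ pν ℓ ∧
    2 * (16 * pν ℓ) + sparseSize (16 * pν ℓ) (pτ ℓ ^ 2) *
      (pτ ℓ ^ 2 * (Nat.log 2 (2 * (16 * pν ℓ)) + 2) + 1) + 1 ≤ pν ℓ * (pm ℓ / 2) ∧
    (1 + 2 / (pb ℓ : ℝ)) ^ (2 * pν ℓ) ≤ 2 ^ (pτ ℓ ^ 2)

/-- PART H2 (growth): `2^ν / 32` is at least `2^(c √(ℓ log ℓ / log log ℓ))`. -/
def PartH2 : Prop :=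
  ∃ c : ℝ, 0 < c ∧ ∀ᶠ ℓ : ℕ in Filter.atTop,
    (2 : ℝ) ^ (c * Real.sqrt (ℓ * Real.log ℓ / Real.log (Real.log ℓ))) * 32 ≤ 2 ^ pν ℓ

/-- PART S: every Boolean function is computed by some depth-three circuit. -/
def PartS : Prop := ∀ (n : ℕ) (f : (Fin n → Bool) → Bool), ∃ C : Circuit n, C.Computes f

/-- The main theorem. -/
def Main : Prop :=
  ∃ L : List Bool → Bool, InP L ∧ ∃ c : ℝ, 0 < c ∧ ∀ᶠ n : ℕ in Filter.atTop,
    (2 : ℝ) ^ (c * Real.sqrt (n * Real.log n / Real.log (Real.log n))) ≤ S3 (slice L n) ∧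
    (2 : ℝ) ^ (c * Real.sqrt (n * Real.log n / Real.log (Real.log n))) ≤
      S3 (fun x => !slice L n x)

end Vale.Agent.P336.H746
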